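import Crest.Agent.X212.For32.Jet

/-!
# Row 212, NT-FOR (helper32): if all relations have tangential derivatives, the line deforms
-/

set_option autoImplicit false
set_option linter.unusedSectionVars false
noncomputable section
open scoped Manifold ContDiff Topology InnerProductSpace
open MeasureTheory Set Function Filter

namespace Crest.Agent.X212.For32
open An Wz78 Prm93 For74
open Wrd81 (Tf)
open Mp86 (Lop)

variable {E : Type} [NormedAddCommGroup E] [NormedSpace ℝ E] [FiniteDimensional ℝ E]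
  [MeasurableSpace E] [BorelSpace E]
  {HM : Type} [TopologicalSpace HM] {I : ModelWithCorners ℝ E HM} [I.Boundaryless]
  {M : Type} [TopologicalSpace M] [ChartedSpace HM M] [IsManifold I ∞ M]
  [MeasurableSpace M] [T2Space M] [BorelSpace M] [SecondCountableTopology M]
  {ι : Type} [Fintype ι]
  {V : Type} [NormedAddCommGroup V] [InnerProductSpace ℝ V] [FiniteDimensional ℝ V]
  {F : Fr I M ι} {A α : ι → M → V →L[ℝ] V} {u ξ η : M → V} {x : M} {g : M → ℝ} {Ω : Set M}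
  {S : M → Submodule ℝ V} {𝒥 : Submodule ℝ ((M → V) × (M → V))}

theorem lap_sm (hA : ∀ a, Sm I (A a)) (hg : Sm I g) (hu : SA I u x) :
    lap I F.e F.dv A (fun y => g y • u y) x = g x • lap I F.e F.dv A u x -
      ∑ a, (2 * F.D a g x) • nab I F.e A a u x - Lop I F.e F.dv g x • u x := by
  have h : ∀ a, nab I F.e A a (fun y => g y • u y) =ᶠ[𝓝 x]
      fun y => F.D a g y • u y + g y • nab I F.e A a u y := fun a => hu.ev.mono fun y hy => by
    simp only [nab, Sob92.dv_smul (SA.md (hg y)) hy, map_smul, smul_add, add_assoc, Pre.D_def]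
  have n : ∀ a, SA I (nab I F.e A a u) x := fun a => (frm F).sN (fun a => hA a x) a hu
  simp only [lap, fun a => nab_congr (e := F.e) (A := A) a (h a), fun a => (h a).eq_of_nhds, Lop,
    Finset.sum_smul, smul_neg, Finset.smul_sum, ← neg_add', ← Finset.sum_add_distrib]
  refine congrArg _ (Finset.sum_congr rfl fun a _ => ?_)
  rw [nab_add a (SA.smul (F.sm_D hg a x) hu) (SA.smul (hg x) (n a)),
    nab_smul a (F.sm_D hg a x) hu, nab_smul a (hg x) (n a)]
  simp only [Pre.D_def, smul_eq_mul]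
  module

theorem L1_sm (hα : ∀ a, Sm I (α a)) (hg : Sm I g) (hu : Sm I u) :
    L1 F A α (fun y => g y • u y) x =
      g x • L1 F A α u x - ∑ a, (2 * F.D a g x) • α a x (u x) := by
  simp only [L1, map_smul, fun a => nab_smul (e := F.e) (A := A) a (hg x) (hu x),
    fun a => nab_smul (e := F.e) (A := A) a (hg x) (SA.app (hα a x) (hu x)), smul_neg,
    Finset.smul_sum, ← neg_add', ← Finset.sum_add_distrib, map_add]
  refine congrArg _ (Finset.sum_congr rfl fun a _ => ?_)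
  simp only [Pre.D_def]
  module

/-- the component along `ξ` -/
def ph (ξ u : M → V) (x : M) : ℝ := (1 / 16 : ℝ) * ⟪ξ x, u x⟫_ℝ

theorem sm_ph (hξ : Sm I ξ) (hu : Sm I u) : Sm I (ph ξ u) := fun x =>
  SA.mul contMDiffAt_const (SA.inner (hξ x) (hu x))

section
variable (X : Xi F A Ω ξ)
include X

theorem in_xi (hx : x ∈ Ω) : ⟪ξ x, ξ x⟫_ℝ = 16 := (real_inner_self_eq_norm_sq _).trans (X.nrm x hx)

theorem ph_eq (h : ∃ b : ℝ, u x = b • ξ x) : u x = ph ξ u x • ξ x := by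
  obtain ⟨b, hb⟩ := h
  by_cases hx : x ∈ Ω
  · rw [ph, hb, real_inner_smul_right, in_xi X hx]; congr 1; ring
  · simp [hb, X.off x hx]

theorem lap_xi (hA : ∀ a, Sm I (A a)) (hg : Sm I g) :
    lap I F.e F.dv A (fun y => g y • ξ y) x = -Lop I F.e F.dv g x • ξ x := by
  have h : ∀ a, nab I F.e A a ξ = 0 := fun a => funext (X.par a)
  have k : ∀ a, nab I F.e A a (0 : M → V) x = 0 := fun a => by
    simp only [nab, Pi.zero_apply, map_zero, add_zero]; exact congrFun (Sob92.dv_const (0 : V)) x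
  rw [lap_sm hA hg (X.sm x)]
  simp [lap, h, k]

variable (P : Prs F A α Ω ξ S 𝒥) (hB : ∀ j ∈ 𝒥, j.1 = 0 → ∀ x ∈ Ω, ∃ t : ℝ, j.2 x = t • ξ x)
include P hB

theorem pairs {j k : (M → V) × (M → V)} (hj : j ∈ 𝒥) (hk : k ∈ 𝒥) (hx : x ∈ Ω) :
    ph ξ k.1 x • (j.2 x - ph ξ j.2 x • ξ x) = ph ξ j.1 x • (k.2 x - ph ξ k.2 x • ξ x) := by
  obtain ⟨χ, c1, c2⟩ := Wrd81.exists_tf (I := I) (X.cl.isOpen.mem_nhds hx)
  obtain ⟨t, ht⟩ := hB _ (𝒥.sub_mem (P.mul _ (c1.mul (sm_ph X.sm (Cb.sm (P.cb k hk).1))) j hj)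
    (P.mul _ (c1.mul (sm_ph X.sm (Cb.sm (P.cb j hj).1))) k hk)) (funext fun y => by
      change (_ * _) • j.1 y - (_ * _) • k.1 y = 0
      have e1 := ph_eq X (P.line j hj y)
      have e2 := ph_eq X (P.line k hk y)
      generalize ph ξ j.1 y = a at *
      generalize ph ξ k.1 y = b at *
      rw [e1, e2]; module) x hx
  change (_ * _) • j.2 x - (_ * _) • k.2 x = _ at ht
  rw [c2, mul_one, mul_one] at ht
  have e := congrArg (fun v => ⟪ξ x, v⟫_ℝ) ht
  simp only [inner_sub_right, real_inner_smul_right, in_xi X hx] at e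
  have e' : t = ph ξ k.1 x * ph ξ j.2 x - ph ξ j.1 x * ph ξ k.2 x := by
    simp only [ph] at e ⊢; linarith
  rw [smul_sub, smul_sub, sub_eq_sub_iff_sub_eq_sub, ht, e']; module

theorem exists_eta (nz : ∀ x ∈ Ω, ∃ j ∈ 𝒥, j.1 x ≠ 0) : ∃ η : M → V, ∀ x ∈ Ω, SA I η x ∧
    η x ∈ S x ∧ ⟪η x, ξ x⟫_ℝ = 0 ∧ ∀ j ∈ 𝒥, j.2 x = ph ξ j.1 x • η x + ph ξ j.2 x • ξ x := by
  choose! k k1 k2 using nz
  have k3 : ∀ x ∈ Ω, ph ξ (k x).1 x ≠ 0 := fun x hx h => k2 x hx (by
    rw [ph_eq X (P.line _ (k1 x hx) x), h, zero_smul])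
  have key : ∀ x ∈ Ω, ∀ j ∈ 𝒥, ph ξ j.1 x • (ph ξ (k x).1 x)⁻¹ •
      ((k x).2 x - ph ξ (k x).2 x • ξ x) = j.2 x - ph ξ j.2 x • ξ x := fun x hx j hj => by
    rw [smul_comm, ← pairs X P hB hj (k1 x hx) hx, smul_smul, inv_mul_cancel₀ (k3 x hx), one_smul]
  refine ⟨fun x => (ph ξ (k x).1 x)⁻¹ • ((k x).2 x - ph ξ (k x).2 x • ξ x), fun x hx =>
    ⟨?_, Submodule.smul_mem _ _ (sub_mem (P.mem _ (k1 x hx) x) (Submodule.smul_mem _ _ (P.xi x))),
      ?_, fun j hj => by rw [key x hx j hj, sub_add_cancel]⟩⟩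
  · have s1 := sm_ph X.sm (Cb.sm (P.cb _ (k1 x hx)).1)
    have s2 := Cb.sm (P.cb _ (k1 x hx)).2
    refine (SA.smul ((s1 x).inv₀ (k3 x hx)) ((s2 x).sub
      (SA.smul (sm_ph X.sm s2 x) (X.sm x)))).congr_of_eventuallyEq ?_
    filter_upwards [X.cl.isOpen.mem_nhds hx, s1.continuous.continuousAt.eventually_ne (k3 x hx)]
      with y hy hy'
    rw [← key y hy _ (k1 x hx), inv_smul_smul₀ hy']
  · rw [real_inner_smul_left, inner_sub_left, real_inner_smul_left, in_xi X hx, real_inner_comm]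
    simp only [ph]
    ring

end

/-- **case B** -/
theorem caseB (h : Ln F A α) (X : Xi F A Ω ξ) (P : Prs F A α Ω ξ S 𝒥)
    (nz : ∀ x ∈ Ω, ∃ j ∈ 𝒥, j.1 x ≠ 0)
    (hB : ∀ j ∈ 𝒥, j.1 = 0 → ∀ x ∈ Ω, ∃ t : ℝ, j.2 x = t • ξ x) :
    ∃ η : M → V, ∀ x ∈ Ω, SA I η x ∧ η x ∈ S x ∧ ⟪η x, ξ x⟫_ℝ = 0 ∧
      ∀ i, nab I F.e A i η x + α i x (ξ x) = 0 := by
  obtain ⟨η, hη⟩ := exists_eta X P hB nz
  refine ⟨η, fun x hx => ⟨(hη x hx).1, (hη x hx).2.1, (hη x hx).2.2.1, fun i => ?_⟩⟩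
  obtain ⟨k, k1, k2⟩ := nz x hx
  have sA := h.mc.sm
  have sα : ∀ a, Sm I (α a) := fun a => Cb.sm (h.cα a)
  have s0 := sm_ph X.sm (Cb.sm (P.cb k k1).1)
  have p0 : ph ξ k.1 x ≠ 0 := fun e => k2 (by rw [ph_eq X (P.line k k1 x), e, zero_smul])
  have hO : Ω ∩ {y | ph ξ k.1 y ≠ 0} ∈ 𝓝 x :=
    inter_mem (X.cl.isOpen.mem_nhds hx) (s0.continuous.continuousAt.eventually_ne p0)
  have key : ∀ ψ, Tf I (Ω ∩ {y | ph ξ k.1 y ≠ 0}) ψ → ∃ t : ℝ,
      ∑ a, (2 * F.D a ψ x) • (nab I F.e A a η x + α a x (ξ x)) =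
        ψ x • (lap I F.e F.dv A η x + L1 F A α ξ x) + t • ξ x := fun ψ hψ => by
    let φ : M → ℝ := fun y => ψ y - Lop I F.e F.dv ψ y
    have sφ : Sm I φ := hψ.sm.sub (contMDiff_finsetSum fun a _ =>
      (F.sm_D (F.sm_D hψ.sm a) a).add ((F.dv_sm a).mul (F.sm_D hψ.sm a)))
    have zφ : ∀ y ∉ tsupport ψ, φ y = 0 := fun y hy => by
      have e1 := fun a => image_eq_zero_of_notMem_tsupport fun q => hy (F.tsupport_D ψ a q)
      have e2 := fun a => image_eq_zero_of_notMem_tsupport fun q =>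
        hy (F.tsupport_D ψ a (F.tsupport_D (F.D a ψ) a q))
      simp only [Pre.D_def] at e1 e2
      simp [φ, Lop, e1, e2, image_eq_zero_of_notMem_tsupport hy]
    have sub : tsupport (fun y => φ y * (ph ξ k.1 y)⁻¹) ⊆ tsupport ψ :=
      closure_minimal (fun y hy => by_contra fun q => hy (by simp [zφ y q])) (isClosed_tsupport _)
    have hf : Tf I Ω fun y => φ y * (ph ξ k.1 y)⁻¹ := ⟨contMDiff_of_tsupport fun y hy =>
      (sφ y).mul ((s0 y).inv₀ (hψ.sub (sub hy)).2),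
      hψ.hcs.of_isClosed_subset (isClosed_tsupport _) sub, fun y hy => (hψ.sub (sub hy)).1⟩
    have e1 : (fun y => (φ y * (ph ξ k.1 y)⁻¹) • k.1 y) = fun y => φ y • ξ y := funext fun y => by
      by_cases hy : y ∈ tsupport ψ
      · rw [mul_smul, ph_eq X (P.line k k1 y), inv_smul_smul₀ (hψ.sub hy).2]
      · simp [zφ y hy]
    have sψ : Sm I fun y => ψ y • ξ y := fun y => SA.smul (hψ.sm y) (X.sm y)
    have e2 : F.res A (fun y => φ y • ξ y) = fun y => ψ y • ξ y := Mp86.res_eq h.bumps h.mc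
      ⟨sψ, sψ.continuous.bounded_above_of_compact_support hψ.hcs.smul_right, fun y => by
        rw [lap_xi X sA hψ.sm, ← add_smul, ← sub_eq_add_neg]⟩
    have j1 := P.mul _ hf k k1
    have j2 := P.res _ j1
    have r := (h.re (Sob92.Cb_sub (P.cb _ j1).2 (h.cb_L1 (h.re (P.cb _ j1).1).2))).1.2.2 x
    have c1 := (hη x hx).2.2.2 _ j1
    have sv := Cb.sm (P.cb _ j2).2
    have pe : ∀ (g : M → ℝ), ∀ y ∈ Ω, ph ξ (fun y => g y • ξ y) y = g y := fun g y hy => by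
      rw [ph, real_inner_smul_right, in_xi X hy]; ring
    simp only [e1, e2] at j2 r c1 sv
    change F.res A (fun y => (φ y * (ph ξ k.1 y)⁻¹) • k.2 y - L1 F A α (fun y => ψ y • ξ y) y) x +
      lap I F.e F.dv A (F.res A fun y => (φ y * (ph ξ k.1 y)⁻¹) • k.2 y -
        L1 F A α (fun y => ψ y • ξ y) y) x = (φ x * (ph ξ k.1 x)⁻¹) • k.2 x - _ at r
    generalize F.res A (fun y => (φ y * (ph ξ k.1 y)⁻¹) • k.2 y -
      L1 F A α (fun y => ψ y • ξ y) y) = v at *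
    obtain ⟨χ, χ1, -, χ3, χ4⟩ := Wrd81.exists_bump (I := I) (X.cl.isOpen.mem_nhds hx)
    have sη : Sm I fun y => χ y • η y := contMDiff_of_tsupport fun y hy =>
      SA.smul (χ1 y) (hη y (χ3 (tsupport_smul_subset_left _ _ hy))).1
    have eη : (fun y => χ y • η y) =ᶠ[𝓝 x] η := χ4.mono fun y hy => by simp [hy]
    have ev : v =ᶠ[𝓝 x] fun y => ψ y • χ y • η y + ph ξ v y • ξ y := by
      filter_upwards [X.cl.isOpen.mem_nhds hx, eη] with y hy e
      rw [e, ← pe ψ y hy]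
      exact (hη y hy).2.2.2 _ j2
    rw [Eqv71.lap_congr ev, ev.eq_of_nhds, Mp86.lap_add sA (fun y => SA.smul (hψ.sm y) (sη y))
      (fun y => SA.smul (sm_ph X.sm sv y) (X.sm y)), lap_xi X sA (sm_ph X.sm sv),
      lap_sm sA hψ.sm (sη x), c1, pe φ x hx, L1_sm sα hψ.sm X.sm, Eqv71.lap_congr eη] at r
    simp only [fun a => nab_congr (e := F.e) (A := A) a eη, eη.eq_of_nhds] at r
    refine ⟨ph ξ v x - Lop I F.e F.dv (ph ξ v) x -
      ph ξ (fun y => (φ y * (ph ξ k.1 y)⁻¹) • k.2 y) x, ?_⟩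
    simp only [smul_add, Finset.sum_add_distrib]
    linear_combination (norm := module) (-1 : ℝ) • r
  obtain ⟨χ, χ1, χ2, χ3, χ4⟩ := Wrd81.exists_bump (I := I) hO
  obtain ⟨t, ht⟩ := key χ ⟨χ1, χ2, χ3⟩
  obtain ⟨g, g1, g2⟩ := Wrd81.exists_tf_D F hO i
  obtain ⟨t', ht'⟩ := key g g1
  have d : ∀ a, F.D a χ x = 0 := fun a =>
    (Sob92.dv_congr χ4).trans (congrFun (Sob92.dv_const (1 : ℝ)) x)
  simp only [d, mul_zero, zero_smul, Finset.sum_const_zero, χ4.eq_of_nhds, Pi.one_apply,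
    one_smul] at ht
  have pr : ∑ a, F.P i a x • (nab I F.e A a η x + α a x (ξ x)) =
      nab I F.e A i η x + α i x (ξ x) := by
    conv_rhs => rw [nab, ← Pre.D_def, ← Wrd81.P_D F η i x, ← h.pA i x, ← h.pα i x]
    simp only [nab, smul_add, Finset.sum_add_distrib, Pre.D_def, _root_.sum_apply, smul_apply]
  simp only [g2, mul_smul, ← Finset.smul_sum, pr, eq_neg_of_add_eq_zero_left ht.symm] at ht'
  have o : ⟪nab I F.e A i η x + α i x (ξ x), ξ x⟫_ℝ = 0 := by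
    have := dv_inner (e := F.e) (A := A) i (h.sA i x) (hη x hx).1 (X.sm x)
    rw [X.par, inner_zero_right, add_zero, Sob92.dv_congr (v := fun _ => (0 : ℝ))
      (mem_of_superset (X.cl.isOpen.mem_nhds hx) fun y hy => (hη y hy).2.2.1),
      Sob92.dv_const] at this
    rw [inner_add_left, ← this, (h.sα i x).self]; simp
  generalize nab I F.e A i η x + α i x (ξ x) = w at *
  have e : w = ((t' - g x * t) / 2) • ξ x := by
    linear_combination (norm := module) (1 / 2 : ℝ) • ht'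
  rw [e, real_inner_smul_left, in_xi X hx] at o
  rw [e, show (t' - g x * t) / 2 = 0 by linarith, zero_smul]

end Crest.Agent.X212.For32
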