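import Crest.Agent.X212.For74.Defs

/-!
# Row 212, NT-FOR (helper32): jets of resolvents and of seeds
-/

set_option autoImplicit false
set_option linter.unusedSectionVars false
noncomputable section
open scoped Manifold ContDiff Topology InnerProductSpace
open MeasureTheory Set Function Filter

namespace Crest.Agent.X212.For74
open An Wz78 Sob92 Prm93
open Wrd81 (Tf)

variable {E : Type} [NormedAddCommGroup E] [NormedSpace ℝ E] [FiniteDimensional ℝ E]
  [MeasurableSpace E] [BorelSpace E]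
  {HM : Type} [TopologicalSpace HM] {I : ModelWithCorners ℝ E HM} [I.Boundaryless]
  {M : Type} [TopologicalSpace M] [ChartedSpace HM M] [IsManifold I ∞ M]
  [MeasurableSpace M] [T2Space M] [BorelSpace M] [SecondCountableTopology M]
  {ι : Type} [Fintype ι]
  {V : Type} [NormedAddCommGroup V] [InnerProductSpace ℝ V] [FiniteDimensional ℝ V]
  {F : Fr I M ι} {A α : ι → M → V →L[ℝ] V} {u v : ℝ → M → V} {u' v' w : M → V}

theorem cb_bd {N : Type} [NormedAddCommGroup N] [NormedSpace ℝ N] {f : M → N} (h : F.Cb f) :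
    ∃ C, 0 ≤ C ∧ ∀ x, ‖f x‖ ≤ C :=
  ⟨max _ 0, le_max_right _ _, fun x => (CB_bound (h.choose_spec.2 0) x).trans (le_max_left _ _)⟩

namespace Jet

/-- polynomials of degree two -/
theorem quad {c₀ c₁ c₂ : M → V} (h0 : F.Cb c₀) (h1 : F.Cb c₁) (h2 : F.Cb c₂) :
    Jet F (fun s x => c₀ x + s • c₁ x + s ^ 2 • c₂ x) c₁ := by
  obtain ⟨C, -, hC⟩ := cb_bd h2
  refine ⟨fun s => Cb_add (Cb_add h0 (Cb_smul (Cb_const s) h1)) (Cb_smul (Cb_const _) h2), h1,
    C, fun s _ x => ?_⟩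
  rw [show c₀ x + s • c₁ x + s ^ 2 • c₂ x - (c₀ x + (0 : ℝ) • c₁ x + (0 : ℝ) ^ 2 • c₂ x) - s • c₁ x
    = s ^ 2 • c₂ x by simp; abel, norm_smul, Real.norm_of_nonneg (sq_nonneg s), mul_comm]
  exact mul_le_mul_of_nonneg_right (hC x) (sq_nonneg s)

theorem zero : Jet F (0 : ℝ → M → V) 0 :=
  ⟨fun _ => Cb_const 0, Cb_const 0, 0, fun _ _ _ => by simp⟩

theorem add (h : Jet F u u') (k : Jet F v v') : Jet F (u + v) (u' + v') := by
  obtain ⟨C, hC⟩ := h.est
  obtain ⟨D, hD⟩ := k.est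
  refine ⟨fun s => Cb_add (h.cb s) (k.cb s), Cb_add h.cb' k.cb', C + D, fun s hs x => ?_⟩
  rw [show (u + v) s x - (u + v) 0 x - s • (u' + v') x = (u s x - u 0 x - s • u' x) +
    (v s x - v 0 x - s • v' x) by simp only [Pi.add_apply, smul_add]; abel, add_mul]
  exact (norm_add_le _ _).trans (add_le_add (hC s hs x) (hD s hs x))

theorem mul {f : M → ℝ} (hf : F.Cb f) (h : Jet F u u') :
    Jet F (fun s x => f x • u s x) fun x => f x • u' x := by
  obtain ⟨C, hC⟩ := h.est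
  obtain ⟨D, D0, hD⟩ := cb_bd hf
  refine ⟨fun s => Cb_smul hf (h.cb s), Cb_smul hf h.cb', D * C, fun s hs x => ?_⟩
  rw [smul_comm s, ← smul_sub, ← smul_sub, norm_smul, mul_assoc]
  exact mul_le_mul (hD x) (hC s hs x) (norm_nonneg _) D0

theorem smul (r : ℝ) (h : Jet F u u') : Jet F (r • u) (r • u') := h.mul (Cb_const r)

theorem sum {κ : Type*} (S : Finset κ) {u : κ → ℝ → M → V} {u' : κ → M → V}
    (h : ∀ k ∈ S, Jet F (u k) (u' k)) : Jet F (∑ k ∈ S, u k) (∑ k ∈ S, u' k) := by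
  classical
  induction S using Finset.induction_on with
  | empty => simpa using zero
  | insert k S hk ih =>
    rw [Finset.sum_insert hk, Finset.sum_insert hk]
    exact (h k (by simp)).add (ih fun j hj => h j (by simp [hj]))

theorem hasDerivAt (h : Jet F u u') (x : M) : HasDerivAt (fun s => u s x) (u' x) 0 := by
  obtain ⟨C, hC⟩ := h.est
  rw [hasDerivAt_iff_isLittleO_nhds_zero]
  refine (Asymptotics.IsBigO.of_bound C ?_).trans_isLittleO
    (Asymptotics.isLittleO_pow_id (𝕜 := ℝ) (n := 2) (by norm_num))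
  filter_upwards [Icc_mem_nhds (show (-1 : ℝ) < 0 by norm_num) one_pos] with s hs
  rw [zero_add, Real.norm_of_nonneg (sq_nonneg s)]
  exact hC s (abs_le.2 hs) x

theorem unique (h : Jet F u u') (k : Jet F u v') : u' = v' :=
  funext fun x => (h.hasDerivAt x).unique (k.hasDerivAt x)

theorem mem (h : Jet F u u') {x : M} {S : Submodule ℝ V} (hS : ∀ s, u s x ∈ S) : u' x ∈ S :=
  S.closed_of_finiteDimensional.mem_of_tendsto (hasDerivAt_iff_tendsto_slope.1 (h.hasDerivAt x))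
    (.of_forall fun s => S.smul_mem _ (S.sub_mem (hS s) (hS 0)))

end Jet

/-- the second variation of `∇*∇` along `α` -/
def L2 (α : ι → M → V →L[ℝ] V) (u : M → V) : M → V := fun x => -∑ a, α a x (α a x (u x))

theorem ln_zero : ln A α 0 = A := by funext a x; simp [ln]

theorem nab_ln (s : ℝ) (a : ι) (x : M) :
    nab I F.e (ln A α s) a w x = nab I F.e A a w x + s • α a x (w x) := by
  simp only [nab, ln, add_apply, smul_apply, add_assoc]

theorem lap_ln (hA : ∀ a, Sm I (A a)) (hα : ∀ a, Sm I (α a)) (hw : Sm I w) (s : ℝ) (x : M) :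
    lap I F.e F.dv (ln A α s) w x =
      lap I F.e F.dv A w x + s • L1 F A α w x + s ^ 2 • L2 α w x := by
  have h : ∀ a, nab I F.e (ln A α s) a w = fun y => nab I F.e A a w y + s • α a y (w y) :=
    fun a => funext (nab_ln s a)
  have k : ∀ a, SA I (fun y => α a y (w y)) x := fun a => SA.app (hα a x) (hw x)
  simp only [lap, nab_ln s _ (w := nab I F.e (ln A α s) _ w)]
  simp only [h, fun a => nab_add (e := F.e) (A := A) a (sm_nab (F := F) hA a hw x)
    (SA.smul (contMDiffAt_const (c := s)) (k a)), fun a => nab_csmul (e := F.e) (A := A) a s (k a),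
    L1, L2, map_add, map_smul, smul_add, smul_neg, Finset.smul_sum, Finset.sum_add_distrib,
    smul_comm (F.dv _ x) s, pow_two, mul_smul]
  abel

namespace Ln
variable (h : Ln F A α)
include h

theorem cb_ln (s : ℝ) (a : ι) : F.Cb (ln A α s a) := Cb_add (h.cA a) (Cb_smul (Cb_const s) (h.cα a))

theorem sk_ln (s : ℝ) (a : ι) (x : M) : Skew (ln A α s a x) := fun v w => by
  simp only [ln, add_apply, smul_apply, inner_add_left, inner_add_right, real_inner_smul_left,
    real_inner_smul_right, h.sA a x v w, h.sα a x v w]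
  ring

theorem mc_ln (s : ℝ) : Mp86.Mc I (ln A α s) := ⟨fun a => Cb.sm (h.cb_ln s a), h.sk_ln s⟩

theorem mc : Mp86.Mc I A := ⟨fun a => Cb.sm (h.cA a), h.sA⟩

theorem bumps : Mp86.Bumps I F.e F.dv := Mp86.bumps_of_tame F h.tame.choose_spec

theorem re (hw : F.Cb w) : F.IsRes A w (F.res A w) ∧ F.Cb (F.res A w) :=
  Mon62.re_tame h.tame.choose_spec h.cA h.sA hw

theorem re_ln (s : ℝ) (hw : F.Cb w) :
    F.IsRes (ln A α s) w (F.res (ln A α s) w) ∧ F.Cb (F.res (ln A α s) w) :=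
  Mon62.re_tame h.tame.choose_spec (h.cb_ln s) (h.sk_ln s) hw

theorem cb_nab (hw : F.Cb w) (a : ι) : F.Cb (nab I F.e A a w) :=
  Cb_add (Cb_D hw a) (Cb_app (h.cA a) hw)

theorem cb_L1 (hw : F.Cb w) : F.Cb (L1 F A α w) :=
  Cb_neg (Cb_sum _ fun a _ => Cb_add (Cb_add (Cb_app (h.cα a) (h.cb_nab hw a))
    (h.cb_nab (Cb_app (h.cα a) hw) a))
    (Cb_smul ⟨_, h.tame.choose_spec.dv a⟩ (Cb_app (h.cα a) hw)))

theorem cb_L2 (hw : F.Cb w) : F.Cb (L2 α w) :=
  Cb_neg (Cb_sum _ fun a _ => Cb_app (h.cα a) (Cb_app (h.cα a) hw))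

theorem isRes_ln {t : M → V} (k : F.IsRes A t w) (s : ℝ) :
    F.IsRes (ln A α s) (fun x => t x + s • L1 F A α w x + s ^ 2 • L2 α w x) w :=
  ⟨k.1, k.2.1, fun x => by
    simp only [lap_ln h.mc.sm (fun a => Cb.sm (h.cα a)) k.1, ← k.2.2 x]; abel⟩

end Ln

/-- **JET** -/
theorem jet : JetStmt I M ι V := by
  intro F A α u u' h j
  obtain ⟨C, hC⟩ := j.est
  obtain ⟨a1, a2⟩ := h.re (j.cb 0)
  obtain ⟨b1, b2⟩ := h.re (w := fun x => u' x - L1 F A α (F.res A (u 0)) x)
    (Cb_sub j.cb' (h.cb_L1 a2))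
  obtain ⟨C1, p1, c1⟩ := cb_bd (h.cb_L2 a2)
  obtain ⟨C2, p2, c2⟩ := cb_bd (h.cb_L1 b2)
  obtain ⟨C3, p3, c3⟩ := cb_bd (h.cb_L2 b2)
  refine ⟨fun s => (h.re_ln s (j.cb s)).2, b2, C + (C1 + C2 + C3), fun s hs x => ?_⟩
  have m := (h.mc_ln s).sm
  have r := Mp86.isRes_add m (Mp86.isRes_add m (h.re_ln s (j.cb s)).1
    (Mp86.isRes_smul m (-1) (h.isRes_ln a1 s))) (Mp86.isRes_smul m (-s) (h.isRes_ln b1 s))
  have := Mp86.isRes_norm_le h.bumps (h.mc_ln s) r (m := (C + (C1 + C2 + C3)) * s ^ 2)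
    (fun y => ?_) x
  · rw [ln_zero]
    simpa only [neg_smul, one_smul, ← sub_eq_add_neg] using this
  generalize F.res A (u 0) = v₀ at *
  generalize F.res A (fun x => u' x - L1 F A α v₀ x) = v₁ at *
  rw [show u s y + (-1 : ℝ) • (u 0 y + s • L1 F A α v₀ y + s ^ 2 • L2 α v₀ y) +
      -s • (u' y - L1 F A α v₀ y + s • L1 F A α v₁ y + s ^ 2 • L2 α v₁ y) =
      (u s y - u 0 y - s • u' y) - s ^ 2 • (L2 α v₀ y + L1 F A α v₁ y + s • L2 α v₁ y) by module,
    add_mul]
  refine (norm_sub_le _ _).trans (add_le_add (hC s hs y) ?_)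
  rw [norm_smul, Real.norm_of_nonneg (sq_nonneg s), mul_comm]
  refine mul_le_mul_of_nonneg_right ((norm_add_le _ _).trans (add_le_add
    ((norm_add_le _ _).trans (add_le_add (c1 y) (c2 y))) ?_)) (sq_nonneg s)
  rw [norm_smul, Real.norm_eq_abs]
  exact (mul_le_of_le_one_left (norm_nonneg _) hs).trans (c3 y)

/-- **SEED** -/
theorem seed (lam : Type) [Fintype lam] : SeedStmt I M ι lam := by
  intro B G m W a f g h hB hG H C sa hf sg sh
  have sp := Std94.sm_pg hB H
  have sW : ∀ k, Sm I (W k) := fun k x => C.cc.sm k x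
  have sb : ∀ k, Sm I fun y => opL (a y k) := fun k x => SA.clm opL (SA.comp (sa x) k)
  have cb : ∀ T : ι × ι → M → En (Fin m.N), (∀ t, Sm I (T t)) → G.F.Cb fun x => ∑ t : ι × ι,
      (f x * G.F.D t.1 g x * G.F.D t.2 h x) • m.pg x (hsL (T t x)) := fun T hT =>
    Cb_sum _ fun t _ => Cb_of_hcs (fun x => SA.smul (SA.mul (SA.mul (hf.sm x)
      (G.F.sm_D sg _ x)) (G.F.sm_D sh _ x)) (SA.app (sp x) (SA.clm hsL (hT t x))))
      (hf.hcs.mul_right.mul_right.smul_right)
  have q := Jet.quad (cb (fun t => curv I G.F.e G.F.c W t.1 t.2) fun t => sm_curv sW _ _)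
    (cb (fun t => dA I G.F.e G.F.c W (fun k y => opL (a y k)) t.1 t.2) fun t x =>
      (((frm G.F).sNE (fun k => sW k x) _ (sb _ x)).sub
        ((frm G.F).sNE (fun k => sW k x) _ (sb _ x))).sub
        (SA.sum _ fun k _ => SA.smul (G.F.c_sm _ _ k x) (sb k x)))
    (cb (fun t y => opL (a y t.1) * opL (a y t.2) - opL (a y t.2) * opL (a y t.1)) fun t x =>
      (SA.mul (sb _ x) (sb _ x)).sub (SA.mul (sb _ x) (sb _ x)))
  refine ⟨_, (congrArg (Jet G.F · _) (funext fun s => funext fun x => ?_)).mpr q⟩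
  have e : m.addC W (s • a) = W + fun k y => s • opL (a y k) := by
    funext k y; simp [Md.addC]
  simp only [Finset.smul_sum, ← Finset.sum_add_distrib]
  refine Finset.sum_congr rfl fun t _ => ?_
  change _ • m.pg x (hsL (curv I G.F.e G.F.c (m.addC W (s • a)) t.1 t.2 x)) = _
  rw [e, curv_addA (fun k => sW k x) fun k => SA.smul contMDiffAt_const (sb k x)]
  have d : dA I G.F.e G.F.c W (fun k y => s • opL (a y k)) t.1 t.2 x =
      s • dA I G.F.e G.F.c W (fun k y => opL (a y k)) t.1 t.2 x := by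
    simp only [dA, fun k l => nabE_smul (e := G.F.e) (A := W) k (contMDiffAt_const (c := s))
      (sb l x), dv_const, Pi.zero_apply, zero_smul, zero_add, smul_sub, Finset.smul_sum, smul_comm s]
  rw [d]
  simp only [smul_mul_smul_comm, ← smul_sub, map_add, map_smul, smul_add, smul_comm s, ← pow_two,
    smul_comm (s ^ 2)]

end Crest.Agent.X212.For74
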